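import Crest.Prelude.Def_MeanCurvatureFlow
import Crest.Agent.N222.G.Defs

/-!
# Row 250 (helper26): FROZEN representation of moving surfaces

One object: the spacetime track `M : Set (E × ℝ)` with a unit normal `n` and the normal speed `V`.
`Mv` is plain data, `Mv.Reg` says that it is a smooth moving surface.  All functions are ambient
(`E × ℝ → _`); only their values on `M` matter.  Sign: `A = δ n`, `H = tr A` (`= 2/r` on the sphere
with the outer normal), mean curvature flow is `V = -H`.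
-/

set_option autoImplicit false
open MeasureTheory Set Filter Topology
open scoped ContDiff InnerProductSpace
open Crest.GeometryTopology.MCF

noncomputable section

namespace Crest.Agent.N250

/-- spacetime -/
abbrev ST : Type := E × ℝ

/-- standard basis -/
abbrev ee (a : Fin 3) : E := EuclideanSpace.single a 1

/-- time derivative of an ambient function -/
def dT (φ : ST → ℝ) (p : ST) : ℝ := deriv (fun s => φ (p.1, s)) p.2

/-- the Gaussian `(4 π s)⁻¹ exp (-|x - y|² / (4 s))` -/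
def gau (y : E) (s : ℝ) (x : E) : ℝ := (4 * Real.pi * s)⁻¹ * Real.exp (-‖x - y‖ ^ 2 / (4 * s))

/-- the backward heat kernel with centre `X` -/
def Phi (X p : ST) : ℝ := gau X.1 (X.2 - p.2) p.1

/-- backward parabolic cylinder `B(x, r) × (t - r², t]` -/
def PC (X : ST) (r : ℝ) : Set ST := Metric.ball X.1 r ×ˢ Ioc (X.2 - r ^ 2) X.2

/-- track, unit normal, normal speed -/
structure Mv where
  M : Set ST
  n : ST → E
  V : ST → ℝ

namespace Mv

variable (F : Mv)

/-- `φ` is a defining function of `F` on the open set `W`, compatible with `n` and `V` -/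
structure Loc (W : Set ST) (φ : ST → ℝ) : Prop where
  isOpen : IsOpen W
  sm : ContDiffOn ℝ ∞ φ W
  ne : ∀ q ∈ W, gradX φ q.1 q.2 ≠ 0
  mem : ∀ q ∈ W, q ∈ F.M ↔ φ q = 0
  n_eq : ∀ q ∈ W, q ∈ F.M → F.n q = ‖gradX φ q.1 q.2‖⁻¹ • gradX φ q.1 q.2
  V_eq : ∀ q ∈ W, q ∈ F.M → F.V q = -dT φ q / ‖gradX φ q.1 q.2‖

/-- smooth embedded moving surface (no boundary, not necessarily closed) -/
def Reg : Prop := ∀ p ∈ F.M, ∃ W φ, p ∈ W ∧ F.Loc W φ

/-- properly embedded in `Ω` -/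
def Proper (Ω : Set ST) : Prop := ∀ p ∈ closure F.M, p ∈ Ω → p ∈ F.M

/-- time slice -/
def sl (t : ℝ) : Set E := {x | (x, t) ∈ F.M}

/-- area measure of the slice (normalised: Lebesgue measure on planes) -/
def mu (t : ℝ) : Measure E := (μHE[2] : Measure E).restrict (F.sl t)

/-! ### calculus -/

/-- smooth on the track -/
def Sm {G : Type} [NormedAddCommGroup G] [NormedSpace ℝ G] (f : ST → G) : Prop :=
  ContDiffOn ℝ ∞ f F.M

/-- derivative along the track; apply it to tangent vectors only -/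
def td {G : Type} [NormedAddCommGroup G] [NormedSpace ℝ G] (f : ST → G) (p : ST) : ST →L[ℝ] G :=
  fderivWithin ℝ f F.M p

/-- tangential part of a vector -/
def PL (p : ST) (v : E) : E := v - ⟪F.n p, v⟫_ℝ • F.n p

/-- the delta-calculus of the slices (`pre.P`, `pre.gam`, `pre.lap`, `pre.hess`, `pre.dv` …) -/
def pre : N222.Pre (ST → ℝ) (Fin 3) where
  x a p := p.1 a
  D a f p := F.td f p (F.PL p (ee a), 0)

/-- tangential derivative `δ_a` -/
abbrev D (a : Fin 3) (f : ST → ℝ) : ST → ℝ := F.pre.D a f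

/-- projection matrix (`= δ_ab - n_a n_b` on `M`) -/
abbrev P (a b : Fin 3) : ST → ℝ := F.pre.P a b

/-- `⟨∇f, ∇g⟩` -/
abbrev gam (f g : ST → ℝ) : ST → ℝ := F.pre.gam f g

/-- Laplace–Beltrami operator of the slices -/
abbrev lap (f : ST → ℝ) : ST → ℝ := F.pre.lap f

/-- derivative following the normal motion -/
def Dt (f : ST → ℝ) (p : ST) : ℝ := F.td f p (F.V p • F.n p, 1)

/-- heat operator -/
def box (f : ST → ℝ) : ST → ℝ := F.Dt f - F.lap f

/-- components of the normal -/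
def nu (a : Fin 3) (p : ST) : ℝ := F.n p a

/-- second fundamental form -/
def A (a b : Fin 3) : ST → ℝ := F.D a (F.nu b)

/-- mean curvature -/
def H : ST → ℝ := ∑ a, F.A a a

/-- `|A|²` -/
def A2 : ST → ℝ := ∑ a, ∑ b, F.A a b * F.A a b

/-- Gauss curvature -/
def K (p : ST) : ℝ := (F.H p ^ 2 - F.A2 p) / 2


/-- iterated tangential derivative -/
def DL (l : List (Fin 3)) (f : ST → ℝ) : ST → ℝ := l.foldr F.D f

/-- all `k`-th tangential derivatives of `f` at `p` are at most `C` -/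
def JetLe (f : ST → ℝ) (k : ℕ) (C : ℝ) (p : ST) : Prop :=
  ∀ l : List (Fin 3), l.length = k → |F.DL l f p| ≤ C

/-- all `k`-th tangential derivatives of the normal at `p` are at most `C` (`k = 1` is `A`) -/
def NJet (k : ℕ) (C : ℝ) (p : ST) : Prop := ∀ a, F.JetLe (F.nu a) k C p

/-- `⟨x - y, n⟩` -/
def xn (y : E) (p : ST) : ℝ := ⟪p.1 - y, F.n p⟫_ℝ

/-- `H - ⟨x - y, n⟩ / (2 (t₀ - t))`, the deviation from self-similarity about `X = (y, t₀)` -/
def dev (X p : ST) : ℝ := F.H p - F.xn X.1 p / (2 * (X.2 - p.2))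

/-- `H - ⟨x, n⟩ / 2` -/
def shr (p : ST) : ℝ := F.H p - F.xn 0 p / 2

/-! ### equations -/

/-- mean curvature flow -/
def IsMCF : Prop := F.Reg ∧ ∀ p ∈ F.M, F.V p = -F.H p

/-- rescaled mean curvature flow -/
def IsRMCF : Prop := F.Reg ∧ ∀ p ∈ F.M, F.V p = -F.shr p

/-- time independent -/
structure Static : Prop where
  mem : ∀ x t, (x, t) ∈ F.M ↔ (x, 0) ∈ F.M
  n_eq : ∀ x t, F.n (x, t) = F.n (x, 0)
  V_eq : ∀ p, F.V p = 0

/-- oriented, properly embedded shrinker (possibly empty), as a static surface; the set is `sl 0` -/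
structure IsShr : Prop where
  reg : F.Reg
  st : F.Static
  closed : IsClosed F.M
  eq : ∀ p ∈ F.M, F.shr p = 0

/-! ### constructions -/

/-- restriction to an open set -/
def res (Ω : Set ST) : Mv := ⟨F.M ∩ Ω, F.n, F.V⟩

/-- the slice at time `t` as a static surface -/
def freeze (t : ℝ) : Mv := ⟨{p | (p.1, t) ∈ F.M}, fun p => F.n (p.1, t), fun _ => 0⟩

/-- the opposite orientation -/
def flip : Mv := ⟨F.M, fun p => -F.n p, fun p => -F.V p⟩

/-- parabolic rescaling `lam • (M - X)` -/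
def para (X : ST) (lam : ℝ) : Mv where
  M := {p | (X.1 + lam⁻¹ • p.1, X.2 + p.2 / lam ^ 2) ∈ F.M}
  n p := F.n (X.1 + lam⁻¹ • p.1, X.2 + p.2 / lam ^ 2)
  V p := F.V (X.1 + lam⁻¹ • p.1, X.2 + p.2 / lam ^ 2) / lam

/-- rotation: the preimage under `R` -/
def rot (R : E ≃ₗᵢ[ℝ] E) : Mv where
  M := {p | (R p.1, p.2) ∈ F.M}
  n p := R.symm (F.n (R p.1, p.2))
  V p := F.V (R p.1, p.2)

/-- `(y, τ) ↦ (x₀ + e^{-τ/2} y, T - e^{-τ})` -/
def _root_.Crest.Agent.N250.rmap (X p : ST) : ST :=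
  (X.1 + Real.exp (-p.2 / 2) • p.1, X.2 - Real.exp (-p.2))

/-- the rescaled flow about `X` -/
def resc (X : ST) : Mv where
  M := {p | rmap X p ∈ F.M}
  n p := F.n (rmap X p)
  V p := Real.exp (-p.2 / 2) * F.V (rmap X p) + ⟪p.1, F.n (rmap X p)⟫_ℝ / 2

/-- `(x, t) ↦ (x / √(-t), -log (-t))` -/
def _root_.Crest.Agent.N250.umap (p : ST) : ST := ((√(-p.2))⁻¹ • p.1, -Real.log (-p.2))

/-- inverse of `resc 0`; for a static `S` this is the flow `√(-t) • S`, `t < 0` -/
def unresc : Mv where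
  M := {p | p.2 < 0 ∧ umap p ∈ F.M}
  n p := F.n (umap p)
  V p := (F.V (umap p) - ⟪(umap p).1, F.n (umap p)⟫_ℝ / 2) / √(-p.2)

/-! ### quantities -/

/-- both open balls of radius `ρ` tangent at `p` miss the slice -/
def Reach (p : ST) (ρ : ℝ) : Prop :=
  ∀ y ∈ F.sl p.2, ρ ≤ dist y (p.1 + ρ • F.n p) ∧ ρ ≤ dist y (p.1 - ρ • F.n p)

/-- Gaussian area of the slice `t`, centre `y`, scale `s` -/
def Fs (t : ℝ) (y : E) (s : ℝ) : ℝ := ∫ x, gau y s x ∂F.mu t

/-- Gaussian density ratio `Θ(X; r)` -/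
def Fg (X : ST) (r : ℝ) : ℝ := F.Fs (X.2 - r ^ 2) X.1 (r ^ 2)

/-- area ratios at most `Λ` -/
def AR (Λ : ℝ) : Prop :=
  ∀ t y r, 0 < r → F.mu t (Metric.ball y r) ≤ ENNReal.ofReal (Λ * r ^ 2)

/-- `∫_{t₁}^{t₂} ∫ f dμ_t dt` as a lower integral (for `f ≥ 0`) -/
def stI (f : ST → ℝ) (t₁ t₂ : ℝ) : ENNReal :=
  ∫⁻ t in Ioo t₁ t₂, ∫⁻ x, ENNReal.ofReal (f (x, t)) ∂F.mu t

end Mv

/-- smooth convergence with multiplicity one (and orientation) on the open set `Ω` -/
structure Conv {α : Type} (l : Filter α) (Fk : α → Mv) (F : Mv) (Ω : Set ST) : Prop where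
  away : ∀ p ∈ Ω, p ∉ F.M → ∃ U ∈ 𝓝 p, ∀ᶠ k in l, Disjoint U (Fk k).M
  near : ∀ p ∈ Ω, p ∈ F.M → ∃ (W : Set ST) (φ : ST → ℝ) (φk : α → ST → ℝ), p ∈ W ∧ F.Loc W φ ∧
    (∀ᶠ k in l, (Fk k).Loc W (φk k)) ∧
    ∀ m : ℕ, TendstoLocallyUniformlyOn (fun k => iteratedFDeriv ℝ m (φk k))
      (iteratedFDeriv ℝ m φ) l W

/-- complete mean curvature flow on the open time interval `I` with area ratios at most `Λ` -/
structure Fl (F : Mv) (I : Set ℝ) (Λ : ℝ) : Prop where
  mcf : F.IsMCF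
  time : ∀ p ∈ F.M, p.2 ∈ I
  proper : F.Proper (univ ×ˢ I)
  ar : F.AR Λ

/-- local Gauss–Bonnet inequality with constant `G` (all slices, all balls) -/
def LGB (F : Mv) (G : ℝ) : Prop :=
  ∀ t y r, 0 < r →
    ∫⁻ x in Metric.ball y r, ENNReal.ofReal (F.A2 (x, t)) ∂F.mu t ≤
      ENNReal.ofReal G * (1 + ∫⁻ x in Metric.ball y (2 * r), ENNReal.ofReal (F.H (x, t) ^ 2) ∂F.mu t)

end Crest.Agent.N250

end
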